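import Vale.Agent.P110.ASMG
import Vale.Agent.P110.PROD

/-!
P110: Littlewood polynomials of every large length with maximum modulus at most `(√2 + c) √N`
on the unit circle, and non-flatness of product (Kronecker) Littlewood polynomials.
-/

namespace Vale.Agent.Results.P110.EveryLargeLength

/-- the coefficients `ε 0, …, ε (N - 1)` are signs -/
def IsSigns (N : ℕ) (ε : ℕ → ℤ) : Prop := ∀ k < N, ε k = 1 ∨ ε k = -1

/-- the polynomial `∑_{k < N} ε_k z^k` -/
noncomputable def littlewood (N : ℕ) (ε : ℕ → ℤ) (z : ℂ) : ℂ :=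
  ∑ k ∈ Finset.range N, (ε k : ℂ) * z ^ k

/-- the polynomial with coefficients `ε 0, …, ε (N - 1)` is `c`-flat -/
def Flat (N : ℕ) (ε : ℕ → ℤ) (c : ℝ) : Prop :=
  ∀ z : ℂ, ‖z‖ = 1 → (1 - c) * √N ≤ ‖littlewood N ε z‖ ∧ ‖littlewood N ε z‖ ≤ (1 + c) * √N

theorem littlewood_mul (m : ℕ) (e q r : ℕ → ℤ) (z : ℂ) : ∀ L : ℕ,
    (∀ k < m, ∀ l < L, e (m * l + k) = q k * r l) →
    littlewood (m * L) e z = Vale.P110.lit m q z * Vale.P110.lit L r (z ^ m) := by
  intro L
  induction L with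
  | zero => intro _; simp [littlewood, Vale.P110.lit]
  | succ L ih =>
    intro h
    have h1 := ih fun k hk l hl => h k hk l (by omega)
    unfold littlewood Vale.P110.lit at h1 ⊢
    rw [Nat.mul_succ, Finset.sum_range_add, h1, Finset.sum_range_succ _ L, mul_add]
    congr 1
    rw [Finset.sum_mul]
    refine Finset.sum_congr rfl fun k hk => ?_
    rw [h k (Finset.mem_range.mp hk) L (by omega)]
    push_cast
    rw [pow_add, pow_mul]
    ring

/-- (1) For every `c > 0` and every sufficiently large length `N` some Littlewood polynomial of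
length `N` satisfies `|P(z)| ≤ (√2 + c) √N` on the unit circle.
(2) If the signs `ε_{m l + k} = q_k r_l` (`k < m`, `l < L`) form a product with `m ≥ 2`, `L ≥ 1`
(so that `P(z) = Q(z) R(z^m)`), the Littlewood polynomial of length `m L` with coefficients `ε`
is not `1/(8m)`-flat. -/
theorem result :
    (∀ c : ℝ, 0 < c → ∃ N₀ : ℕ, ∀ N ≥ N₀, ∃ ε : ℕ → ℤ, IsSigns N ε ∧
      ∀ z : ℂ, ‖z‖ = 1 → ‖littlewood N ε z‖ ≤ (√2 + c) * √N) ∧
    (∀ m L : ℕ, 2 ≤ m → 1 ≤ L → ∀ ε q r : ℕ → ℤ, IsSigns m q → IsSigns L r →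
      (∀ k < m, ∀ l < L, ε (m * l + k) = q k * r l) → ¬ Flat (m * L) ε (1 / (8 * m))) := by
  refine ⟨fun c hc => ?_, fun m L hm hL ε q r hq _ h hf => ?_⟩
  · obtain ⟨N₀, hN₀⟩ := Vale.P110.ASMG.main c hc
    refine ⟨N₀, fun N hN => ?_⟩
    obtain ⟨e, h1, h2⟩ := hN₀ N hN
    exact ⟨e, h1, h2⟩
  · obtain ⟨z, hz⟩ := Vale.P110.PROD.main m L hm q r hq
    rcases hz with ⟨hz1, hz2⟩ | hz2
    · have h1 := hf z hz1
      rw [littlewood_mul m ε q r z L h] at h1
      push_cast at h1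
      rcases hz2 with h3 | h3
      · exact absurd h1.1 (not_le.mpr h3)
      · exact absurd h1.2 (not_le.mpr h3)
    · omega

end Vale.Agent.Results.P110.EveryLargeLength
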