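import Vale.Agent.P110.Comb
import Vale.Agent.P110.AutoC
import Vale.Agent.Results.P110.EveryLargeLength

/-!
P110: Littlewood polynomials: every large length attains `√2 + c`; necessary conditions for
flatness (long pieces are large, partial sums, products).
-/

namespace Vale.Agent.Results.P110.Combined

/-- the coefficients `ε 0, …, ε (N - 1)` are signs -/
def IsSigns (N : ℕ) (ε : ℕ → ℤ) : Prop := ∀ k < N, ε k = 1 ∨ ε k = -1

/-- the polynomial `∑_{k < N} ε_k z^k` -/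
noncomputable def littlewood (N : ℕ) (ε : ℕ → ℤ) (z : ℂ) : ℂ :=
  ∑ k ∈ Finset.range N, (ε k : ℂ) * z ^ k

/-- the polynomial with coefficients `ε 0, …, ε (N - 1)` is `c`-flat -/
def Flat (N : ℕ) (ε : ℕ → ℤ) (c : ℝ) : Prop :=
  ∀ z : ℂ, ‖z‖ = 1 → (1 - c) * √N ≤ ‖littlewood N ε z‖ ∧ ‖littlewood N ε z‖ ≤ (1 + c) * √N

/-- (1) Every large length has a Littlewood polynomial with `|P| ≤ (√2 + c) √N`.
(2) In a `c`-flat Littlewood polynomial `P` every initial and every final piece longer than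
`(1/2 + (2/3) (1/(1-c)² - 1)) N` is at least as large as `P` somewhere on the unit circle.
(3) Initial and final pieces longer than `(1/2 + δ) N` reach `(1 - δ) √N` if `c` is small.
(4) For every sequence of signs and every `n ≥ 2` some partial sum of length in `[n, 2n]` is not
`1/20`-flat, and if the partial sums of lengths `L 0, L 1, …` are ultraflat, then eventually all
ratios `L j / L i ≥ 1` are at most `1 + δ` or at least `2 - δ`.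
(5) Products `Q(z) R(z^m)` with `Q`, `R` of lengths `m`, `L` are not `1/(8m)`-flat if `m ≥ 2`, and
not `1/(4L)`-flat if `L ≥ 2`. -/
theorem result :
    (∀ c : ℝ, 0 < c → ∃ N₀ : ℕ, ∀ N ≥ N₀, ∃ ε : ℕ → ℤ, IsSigns N ε ∧
      ∀ z : ℂ, ‖z‖ = 1 → ‖littlewood N ε z‖ ≤ (√2 + c) * √N) ∧
    (∀ (N a : ℕ) (ε : ℕ → ℤ) (c : ℝ), IsSigns N ε → 1 ≤ N → a ≤ N → 0 ≤ c → c < 1 →
      Flat N ε c →
        ((1 / 2 + 2 / 3 * (1 / (1 - c) ^ 2 - 1)) * N < a →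
          ∃ z : ℂ, ‖z‖ = 1 ∧ ‖littlewood N ε z‖ ≤ ‖littlewood a ε z‖) ∧
        ((1 / 2 + 2 / 3 * (1 / (1 - c) ^ 2 - 1)) * N < N - a →
          ∃ z : ℂ, ‖z‖ = 1 ∧ ‖littlewood N ε z‖ ≤ ‖littlewood N ε z - littlewood a ε z‖)) ∧
    (∀ δ : ℝ, 0 < δ → ∃ c : ℝ, 0 < c ∧ ∀ (N a : ℕ) (ε : ℕ → ℤ), IsSigns N ε → 1 ≤ N → a ≤ N →
      Flat N ε c →
        ((1 / 2 + δ) * N < a → ∃ z : ℂ, ‖z‖ = 1 ∧ (1 - δ) * √N ≤ ‖littlewood a ε z‖) ∧
        ((1 / 2 + δ) * N < N - a →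
          ∃ z : ℂ, ‖z‖ = 1 ∧ (1 - δ) * √N ≤ ‖littlewood N ε z - littlewood a ε z‖)) ∧
    (∀ ε : ℕ → ℤ, (∀ k, ε k = 1 ∨ ε k = -1) →
      (∀ n : ℕ, 2 ≤ n → ∃ m, n ≤ m ∧ m ≤ 2 * n ∧ ¬ Flat m ε (1 / 20)) ∧
      (∀ L : ℕ → ℕ, (∀ j, 1 ≤ L j) → (∀ c : ℝ, 0 < c → ∃ J, ∀ j ≥ J, Flat (L j) ε c) →
        ∀ δ : ℝ, 0 < δ → ∃ J, ∀ i ≥ J, ∀ j ≥ J, L i ≤ L j →
          (L j : ℝ) ≤ (1 + δ) * L i ∨ (2 - δ) * L i ≤ L j)) ∧
    (∀ (m L : ℕ) (ε q r : ℕ → ℤ), IsSigns m q → IsSigns L r →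
      (∀ k < m, ∀ l < L, ε (m * l + k) = q k * r l) →
        (2 ≤ m → 1 ≤ L → ¬ Flat (m * L) ε (1 / (8 * m))) ∧
        (1 ≤ m → 2 ≤ L → ¬ Flat (m * L) ε (1 / (4 * L)))) := by
  refine ⟨EveryLargeLength.result.1, ?_, ?_, ?_, ?_⟩
  · intro N a ε c hε hN ha hc0 hc1 h
    exact Vale.P110.Comb.pieces hε hN ha hc0 hc1 h
  · intro δ hδ
    exact Vale.P110.Comb.limit δ hδ
  · intro ε hε
    exact ⟨fun n hn => Vale.P110.Comb.gapZ ε hε n hn,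
      fun L hL h δ hδ => Vale.P110.Comb.nestedZ ε hε L hL h δ hδ⟩
  · intro m L ε q r hq hr he
    exact ⟨fun hm hL => EveryLargeLength.result.2 m L hm hL ε q r hq hr he,
      fun hm hL => Vale.P110.AutoC.outer m L hm hL ε q r hq hr he⟩

end Vale.Agent.Results.P110.Combined
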