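import Vale.Agent.P110.LargeFin

/-!
P110: long pieces of flat polynomials with unimodular (in particular `±1`) coefficients are large.
-/

namespace Vale.Agent.Results.P110.LargePieces

/-- the partial sum `∑_{k < n} ε_k z^k`; for `ε_k = ±1` a Littlewood polynomial of length `n` -/
noncomputable def partialSum (ε : ℕ → ℂ) (n : ℕ) (z : ℂ) : ℂ :=
  ∑ k ∈ Finset.range n, ε k * z ^ k

/-- the polynomial function `f` of length `n` is `c`-flat -/
def Flat (f : ℂ → ℂ) (n : ℕ) (c : ℝ) : Prop :=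
  ∀ z : ℂ, ‖z‖ = 1 → (1 - c) * √n ≤ ‖f z‖ ∧ ‖f z‖ ≤ (1 + c) * √n

/-- Let `P` be a `c`-flat polynomial of length `N` with unimodular coefficients.
(1) Every initial piece of `P` of length `a > (1/2 + (2/3) (1/(1-c)² - 1)) N` is at least as large
as `P` at some point of the unit circle; the same holds for every final piece of such a length.
(2) In the limit: initial and final pieces of length `> (1/2 + δ) N` have maximum `≥ (1 - δ) √N`
if `c` is small in terms of `δ`. -/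
theorem result :
    (∀ ε : ℕ → ℂ, (∀ k, ‖ε k‖ = 1) → ∀ (N a : ℕ) (c : ℝ), 1 ≤ N → a ≤ N → 0 ≤ c → c < 1 →
      Flat (partialSum ε N) N c →
        ((1 / 2 + 2 / 3 * (1 / (1 - c) ^ 2 - 1)) * N < a →
          ∃ z : ℂ, ‖z‖ = 1 ∧ ‖partialSum ε N z‖ ≤ ‖partialSum ε a z‖) ∧
        ((1 / 2 + 2 / 3 * (1 / (1 - c) ^ 2 - 1)) * N < N - a →
          ∃ z : ℂ, ‖z‖ = 1 ∧ ‖partialSum ε N z‖ ≤ ‖partialSum ε N z - partialSum ε a z‖)) ∧
    (∀ δ : ℝ, 0 < δ → ∃ c : ℝ, 0 < c ∧ ∀ ε : ℕ → ℂ, (∀ k, ‖ε k‖ = 1) → ∀ N : ℕ, 1 ≤ N →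
      Flat (partialSum ε N) N c → ∀ a : ℕ, a ≤ N →
        ((1 / 2 + δ) * N < a → ∃ z : ℂ, ‖z‖ = 1 ∧ (1 - δ) * √N ≤ ‖partialSum ε a z‖) ∧
        ((1 / 2 + δ) * N < N - a →
          ∃ z : ℂ, ‖z‖ = 1 ∧ (1 - δ) * √N ≤ ‖partialSum ε N z - partialSum ε a z‖)) := by
  have hF : ∀ ε n c, Flat (partialSum ε n) n c → Vale.P110.Flat (Vale.P110.part ε n) n c := by
    intro ε n c h z hz
    rw [Vale.P110.Large.eval_part]
    exact h z hz
  constructor
  · intro ε hε N a c hN ha hc0 hc1 h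
    constructor
    · intro h2
      obtain ⟨z, hz, h3⟩ := Vale.P110.Large.large ε hε N a hN ha c hc0 hc1 (hF ε N c h) h2
      rw [Vale.P110.Large.eval_part, Vale.P110.Large.eval_part] at h3
      exact ⟨z, hz, h3⟩
    · intro h2
      exact Vale.P110.Large.large_tail ε hε N a hN ha c hc0 hc1 (hF ε N c h) h2
  · intro δ hδ
    obtain ⟨c, hc, h⟩ := Vale.P110.Large.limit_form δ hδ
    exact ⟨c, hc, fun ε hε N hN hfl a ha => h ε hε N hN (hF ε N c hfl) a ha⟩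

end Vale.Agent.Results.P110.LargePieces
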