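import Vale.Agent.P110.Slim

/-!
P110: flat partial sums of unimodular (in particular `±1`) sequences.
-/

namespace Vale.Agent.Results.P110.PartialSums

/-- the partial sum `∑_{k < n} ε_k z^k`; for `ε_k = ±1` a Littlewood polynomial of length `n` -/
noncomputable def partialSum (ε : ℕ → ℂ) (n : ℕ) (z : ℂ) : ℂ :=
  ∑ k ∈ Finset.range n, ε k * z ^ k

/-- the polynomial function `f` of length `n` is `c`-flat -/
def Flat (f : ℂ → ℂ) (n : ℕ) (c : ℝ) : Prop :=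
  ∀ z : ℂ, ‖z‖ = 1 → (1 - c) * √n ≤ ‖f z‖ ∧ ‖f z‖ ≤ (1 + c) * √n

/-- Let `ε` be a sequence of unimodular numbers (in particular of signs).
(1) If the partial sums of lengths `a ≤ N` are both `c`-flat, then `a` is close to `N` or
`a` is at most about `N / 2`.
(2) For every `n ≥ 2` some partial sum of length between `n` and `2 n` is not `1/20`-flat.
(3) If the partial sums of lengths `L 0, L 1, …` are ultraflat, then eventually every ratio
`L j / L i ≥ 1` is at most `1 + δ` or at least `2 - δ`. -/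
theorem result (ε : ℕ → ℂ) (hε : ∀ k, ‖ε k‖ = 1) :
    (∀ (N a : ℕ) (c : ℝ), 1 ≤ N → a ≤ N → 0 ≤ c → c < 1 → Flat (partialSum ε N) N c →
      Flat (partialSum ε a) a c →
        (1 - c) ^ 2 * N ≤ (1 + c) ^ 2 * a ∨
          (a : ℝ) ≤ (1 / 2 + 2 / 3 * (1 / (1 - c) ^ 2 - 1)) * N) ∧
    (∀ n : ℕ, 2 ≤ n → ∃ m, n ≤ m ∧ m ≤ 2 * n ∧ ¬ Flat (partialSum ε m) m (1 / 20)) ∧
    (∀ L : ℕ → ℕ, (∀ j, 1 ≤ L j) →
      (∀ c : ℝ, 0 < c → ∃ J, ∀ j ≥ J, Flat (partialSum ε (L j)) (L j) c) →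
      ∀ δ : ℝ, 0 < δ → ∃ J, ∀ i ≥ J, ∀ j ≥ J, L i ≤ L j →
        (L j : ℝ) ≤ (1 + δ) * L i ∨ (2 - δ) * L i ≤ L j) := by
  have e : ∀ n, partialSum ε n = fun z => (Vale.P110.part ε n).eval z := by
    intro n
    funext z
    exact (Vale.P110.Slim.eval_part ε n z).symm
  have hF : ∀ n c, Flat (partialSum ε n) n c ↔ Vale.P110.Flat (Vale.P110.part ε n) n c := by
    intro n c
    rw [e]
    exact Iff.rfl
  refine ⟨fun N a c hN ha hc0 hc1 h1 h2 => ?_, fun n hn => ?_, fun L hL h δ hδ => ?_⟩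
  · exact Vale.P110.FIN.main ε hε N a hN ha c hc0 hc1 ((hF N c).1 h1) ((hF a c).1 h2)
  · obtain ⟨m, h1, h2, h3⟩ := Vale.P110.FIN.gap ε hε n hn
    exact ⟨m, h1, h2, fun h => h3 ((hF m _).1 h)⟩
  · refine Vale.P110.Slim.nested ε hε L hL (fun c hc => ?_) δ hδ
    obtain ⟨J, hJ⟩ := h c hc
    exact ⟨J, fun j hj => (hF _ c).1 (hJ j hj)⟩

end Vale.Agent.Results.P110.PartialSums
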